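import Vale.Agent.P235.Main
import Vale.Agent.P235.Apex
import Vale.Agent.P235.Attach
import Vale.Agent.P235.Ladder.Minor

/-!
Bounded `ℓ¹` distortion for graphs without a fixed ladder minor.
-/

open Vale.Agent.P235

theorem Vale.Agent.Results.P235.LadderMinorFree.result :
    (∀ k : ℕ, ∃ C : ℝ, ∀ (V : Type) (_ : Fintype V) (G : SimpleGraph V), G.Connected →
      ¬ Ladder.HasMinor ((SimpleGraph.pathGraph 2).boxProd (SimpleGraph.pathGraph k)) G →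
      ∀ ℓ : Sym2 V → ℝ, (∀ u v, G.Adj u v → 0 < ℓ s(u, v)) →
        ∃ (m : ℕ) (f : V → Fin m → ℝ), ∀ x y,
          pathDist G ℓ x y ≤ ∑ i, |f x i - f y i| ∧
            ∑ i, |f x i - f y i| ≤ C * pathDist G ℓ x y) ∧
    (∀ (V : Type) (_ : Fintype V) (G : SimpleGraph V), G.Connected →
      ∀ ℓ : Sym2 V → ℝ, (∀ u v, G.Adj u v → 0 ≤ ℓ s(u, v)) →
      ∀ S : Finset V, S.Nonempty →
      ∀ C : ℝ, 0 ≤ C →
      ∀ (m₀ : ℕ) (f₀ : ↥((↑S : Set V)ᶜ) → Fin m₀ → ℝ),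
        (∀ x y : ↥((↑S : Set V)ᶜ), (G.induce (↑S : Set V)ᶜ).Reachable x y →
          pathDist (G.induce (↑S : Set V)ᶜ) (fun e => ℓ (e.map Subtype.val)) x y
              ≤ ∑ i, |f₀ x i - f₀ y i| ∧
            ∑ i, |f₀ x i - f₀ y i| ≤ C *
              pathDist (G.induce (↑S : Set V)ᶜ) (fun e => ℓ (e.map Subtype.val)) x y) →
        ∃ (m : ℕ) (f : V → Fin m → ℝ), ∀ x y,
          pathDist G ℓ x y ≤ ∑ i, |f x i - f y i| ∧
            ∑ i, |f x i - f y i| ≤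
              (256 * C + 128 * (8 + (Nat.log 2 S.card : ℝ))) * pathDist G ℓ x y) ∧
    (∀ (V : Type) (_ : Fintype V) (G : SimpleGraph V), G.Connected →
      ∀ ℓ : Sym2 V → ℝ, (∀ u v, G.Adj u v → 0 < ℓ s(u, v)) →
      ∀ S : Finset V, (G.induce (↑S : Set V)ᶜ).IsAcyclic →
        ∃ (m : ℕ) (f : V → Fin m → ℝ), ∀ x y,
          pathDist G ℓ x y ≤ ∑ i, |f x i - f y i| ∧
            ∑ i, |f x i - f y i| ≤ 96 * (5 + (Nat.log 2 S.card : ℝ)) * pathDist G ℓ x y) ∧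
    (∀ (k : ℕ) (C Cs : ℝ), 0 ≤ C → 0 ≤ Cs → ∃ C' : ℝ,
      ∀ (V : Type) (_ : Fintype V) (G : SimpleGraph V), G.Connected →
      ∀ ℓ : Sym2 V → ℝ, (∀ u v, G.Adj u v → 0 < ℓ s(u, v)) →
      ∀ S : Finset V, S.Nonempty →
        (∀ x, x ∉ S → ∀ Q : Finset V, (∀ q ∈ Q, Att G S x q) → Q.card ≤ k) →
        (∀ ℓT : Sym2 ↥S → ℝ, (∀ s t, (torso G S).Adj s t → 0 < ℓT s(s, t)) →
          ∃ (m : ℕ) (f : ↥S → Fin m → ℝ), ∀ s t,
            pathDist (torso G S) ℓT s t ≤ ∑ i, |f s i - f t i| ∧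
              ∑ i, |f s i - f t i| ≤ Cs * pathDist (torso G S) ℓT s t) →
      ∀ (m₀ : ℕ) (f₀ : ↥((↑S : Set V)ᶜ) → Fin m₀ → ℝ),
        (∀ x y : ↥((↑S : Set V)ᶜ), (G.induce (↑S : Set V)ᶜ).Reachable x y →
          pathDist (G.induce (↑S : Set V)ᶜ) (fun e => ℓ (e.map Subtype.val)) x y
              ≤ ∑ i, |f₀ x i - f₀ y i| ∧
            ∑ i, |f₀ x i - f₀ y i| ≤ C *
              pathDist (G.induce (↑S : Set V)ᶜ) (fun e => ℓ (e.map Subtype.val)) x y) →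
        ∃ (m : ℕ) (f : V → Fin m → ℝ), ∀ x y,
          pathDist G ℓ x y ≤ ∑ i, |f x i - f y i| ∧
            ∑ i, |f x i - f y i| ≤ C' * pathDist G ℓ x y) :=
  ⟨fun k => ⟨(Ladder.cst (k * k) (k * k) : ℝ), fun V _ G hc hk ℓ hℓ => by
      classical
      exact Ladder.emb_of_noLad hc (Ladder.noLad_of_minor hk) ℓ fun u v h => (hℓ u v h).le⟩,
    fun _ _ G hc ℓ hℓ S hS C hC m₀ f₀ hf => apex G hc ℓ hℓ S hS C hC m₀ f₀ hf,
    fun _ _ G hc ℓ hℓ S hF => embed G hc ℓ (fun u v h => (hℓ u v h).le) S hF,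
    fun k C Cs hC hCs => ⟨128 * (24 * ((k : ℝ) + 1) * Cs + 1) *
        (6 + 2 * C + 24 * ((k : ℝ) + 1) * Cs),
      fun _ _ G hc ℓ hℓ S hS hk hcore m₀ f₀ hf =>
        glue_attach G hc ℓ hℓ S hS k hk Cs hCs hcore C hC m₀ f₀ hf⟩⟩
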