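import Vale.Agent.P235.Width.Final

/-!
Distortion into `L₁` grows at least linearly in the treewidth.
-/

open MeasureTheory Vale.Agent.P235 Vale.Agent.P235.Width

theorem Vale.Agent.Results.P235.TreewidthLowerBound.result :
    ∀ (n : ℕ) (ε : ℝ), 0 < ε →
      ∃ (V : Type) (_ : Fintype V) (G : SimpleGraph V) (ℓ : Sym2 V → ℝ),
        G.Connected ∧ (∀ u v, G.Adj u v → 0 < ℓ s(u, v)) ∧
        (∃ (I : Type) (_ : Fintype I) (T : SimpleGraph I) (bag : I → Finset V),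
          T.IsTree ∧ (∀ v, ∃ i, v ∈ bag i) ∧
          (∀ u v, G.Adj u v → ∃ i, u ∈ bag i ∧ v ∈ bag i) ∧
          (∀ v, (T.induce {i | v ∈ bag i}).Preconnected) ∧
          ∀ i, (bag i).card ≤ (2 * n + 1) + 1) ∧
        ∀ (Ω : Type) (_ : MeasurableSpace Ω) (μ : Measure Ω) (f : V → Ω → ℝ) (C : ℝ),
          (∀ x, Integrable (f x) μ) →
          (∀ x y, pathDist G ℓ x y ≤ ∫ ω, |f x ω - f y ω| ∂μ ∧
            ∫ ω, |f x ω - f y ω| ∂μ ≤ C * pathDist G ℓ x y) →
          (n : ℝ) + 1 - ε ≤ C := by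
  intro n ε hε
  set δ := min (ε / (n + 1)) (1 / (n + 1)) with hδ
  have hn : (0 : ℝ) < n + 1 := by positivity
  have hδ0 : 0 < δ := lt_min (div_pos hε hn) (div_pos one_pos hn)
  have h1 : (n : ℝ) * δ ≤ ε := by
    have := (le_div_iff₀ hn).mp (min_le_left (ε / (n + 1 : ℝ)) (1 / (n + 1)))
    rw [← hδ] at this
    linarith
  have h2 : (n : ℝ) * δ < 1 := by
    have := (le_div_iff₀ hn).mp (min_le_right (ε / (n + 1 : ℝ)) (1 / (n + 1)))
    rw [← hδ] at this
    linarith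
  obtain ⟨P, ⟨X⟩, hP⟩ := tower δ hδ0 n
  refine ⟨P.V, inferInstance, graph P, weight P, graph_connected P, weight_pos P,
    ⟨X.ι, inferInstance, tree X, X.bag, tree_isTree X, fun v => ⟨X.top v, X.top_mem v⟩,
      fun u v h => bag_edge X h, tree_preconnected X, X.card⟩, ?_⟩
  intro Ω _ μ f C hf hd
  have := transfer P hP (by linarith [Nat.cast_nonneg (α := ℝ) n]) (six_integral μ f hf) hd
  linarith
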